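import Vale.Agent.P014U.Sb.Lg
import Vale.Agent.P014T.Ah.Log

/-! # P014U, block AH: norms (helper37) -/

set_option linter.all false

noncomputable section

namespace Vale.Agent.P014U.Ah

export Vale.Agent.P014T.Ah (nrm_add nrm_lt near_mul lt_mul nrm_one)

variable [Pp]

theorem nrm_odd {C : Type} [NormedField C] [IsUltrametricDist C] (h1 : ‖(pp : C)‖ < 1) {m : ℕ}
    (h : ¬ pp ∣ m) : ‖(m : C)‖ = 1 := by
  obtain ⟨a, b, e⟩ := Nat.isCoprime_iff_coprime.2 ((Nat.Prime.coprime_iff_not_dvd pp_prime).2 h)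
  have e' : (b * m : C) - 1 = -(a * pp) := by
    have := congrArg (Int.cast (R := C)) e
    push_cast at this
    linear_combination this
  have := nrm_one (x := (b * m : C)) (by
    rw [e', norm_neg, norm_mul]
    exact (mul_le_of_le_one_left (norm_nonneg _)
      (IsUltrametricDist.norm_intCast_le_one C a)).trans_lt h1)
  rw [norm_mul] at this
  exact le_antisymm (IsUltrametricDist.norm_natCast_le_one C m)
    (this ▸ mul_le_of_le_one_left (norm_nonneg _) (IsUltrametricDist.norm_intCast_le_one C b))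

theorem two_K : ‖(pp : ℚ_[pp])‖ = 1 / pp := by rw [Padic.norm_p, one_div]

theorem nrm_am (x : ℚ_[pp]) : ‖algebraMap ℚ_[pp] ℂ_[pp] x‖ = ‖x‖ := norm_algebraMap' ℂ_[pp] x

theorem two_C : ‖(pp : ℂ_[pp])‖ = 1 / pp := by rw [← two_K, ← nrm_am, map_natCast]

theorem two_lt : ‖(pp : ℂ_[pp])‖ < 1 := by rw [two_C]; exact Sb.r_inv

theorem two_lt' : ‖(pp : ℚ_[pp])‖ < 1 := by rw [two_K]; exact Sb.r_inv

/-- the powers of order `pp ^ m` of a principal unit -/
theorem pw_one {r : ℤ_[pp]} (h : ‖r‖ < 1) (m : ℕ) :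
    ∃ y : ℤ_[pp], (1 + r) ^ pp ^ m = 1 + pp ^ m * r * (1 + r * y) := by
  obtain ⟨k, hk⟩ := Nat.exists_eq_add_of_lt P014U.two_lt
  obtain ⟨c, hc⟩ := (PadicInt.norm_lt_one_iff_dvd r).1 h
  simpa using ZMod.exists_one_add_mul_pow_prime_pow_eq pp_prime (u := r) (v := r) dvd_rfl
    ⟨c * r ^ k, by
      rw [congrArg (r ^ ·) hk]
      linear_combination (r ^ 2 * r ^ k) * hc⟩ 1 m

end Vale.Agent.P014U.Ah
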