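import Vale.Agent.P014U.Ah.Fc
import Vale.Agent.P014U.Sy.Val
import Vale.Agent.P014U.Iv.Two

/-!
# P014U, block AH: the value of the symbol on a root of unity (Artin and Hasse) (helper37)
-/

set_option linter.all false

noncomputable section

namespace Vale.Agent.P014U.Ah

open NumberField Filter Topology
open Vale.Agent.P022 Vale.Agent.P022K
open Vale.Agent.P022D.W (dec)
open Vale.Agent.P022E.GW (Ov)
open Vale.Agent.P014U.X4S.Ga (K O mem_O)
open Vale.Agent.P014U.X4S.Aq Vale.Agent.P014U.X4F.Rc Vale.Agent.P014U.Sy Vale.Agent.P014U.Iv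

variable [Pp] {x y t s : K} {n : ℕ}

theorem hn_dn (h : hn (n + 1) * x ∈ O) : hn 1 * x ∈ O :=
  O_of (O_mul (O_pow n) h) (by rw [← hn_add 1 n, add_comm]; push_cast; ring)

theorem Lg_mem (h : Un x) : Lg x ∈ O :=
  O_of (O_mul (O_pow 1) (Lg_four h)) (by rw [← mul_assoc, hn_mul, one_mul])

theorem lo_Lg : Lo Lg := by
  refine ⟨fun _ _ => Lg_mul, fun x => Lg_mem, fun n x h k => ?_, lam_cont⟩
  cases n with
  | zero => simpa [hn] using O_mul (O_nat 2) (sub_mem (Lg_mem h) (sub_mem (Un.mem h) O_one))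
  | succ n =>
    obtain ⟨c, c1, c2⟩ := Lg_near (lt_iff.2 (hn_dn k))
    refine O_of (O_mul (O_pw k 2) (O_mul (O_nat 2) c1)) ?_
    rw [c2, hn_two]
    push_cast
    ring

theorem un_iff : Un x ↔ ‖x‖ = 1 := Iff.rfl

/-- the unit part -/
def up (t : K) : K := t * (pp : K) ^ (-t.valuation)

theorem un_up (h : t ≠ 0) : Un (up t) := by
  rw [un_iff, up, norm_mul, Padic.norm_eq_zpow_neg_valuation h, Padic.norm_p_zpow, neg_neg,
    ← zpow_add₀ Sb.r_pos.ne', neg_add_cancel, zpow_zero]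

theorem eq_up (t : K) : t = (pp : K) ^ t.valuation * up t := by
  rw [up, mul_left_comm, ← zpow_add₀ pk_ne, add_neg_cancel, zpow_zero, mul_one]

/-- the logarithm of Iwasawa -/
def Lk (t : K) : K := Lg t

theorem Lk_sb (t : K) : Lk t = Sb.Lg t := rfl

theorem Lk_un (h : Un x) : Lk x = Lg x := rfl

theorem Lk_mul (h : x ≠ 0) (k : y ≠ 0) : Lk (x * y) = Lk x + Lk y := Lg_mul' h k

theorem Lk_two : Lk pp = 0 := (Sb.Lg_two two_K).2

theorem Lk_pow (k : ℕ) : Lk ((pp : K) ^ k) = 0 :=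
  (Lg_pow pk_ne k).trans (mul_eq_zero_of_right _ Lk_two)

theorem Lk_one : Lk 1 = 0 := by simpa using Lk_pow 0

theorem Lk_zpow (v : ℤ) : Lk ((pp : K) ^ v) = 0 := by
  obtain ⟨k, rfl | rfl⟩ := v.eq_nat_or_neg
  · simpa using Lk_pow k
  · have := Lk_mul (pow_ne_zero k pk_ne) (zpow_ne_zero (-k : ℤ) pk_ne)
    rwa [Lk_pow, zero_add, ← zpow_natCast, ← zpow_add₀ pk_ne, add_neg_cancel, zpow_zero, Lk_one,
      eq_comm] at this

theorem Lk_up (h : t ≠ 0) : Lk t = Lg (up t) := by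
  conv_lhs => rw [eq_up t]
  rw [Lk_mul (zpow_ne_zero _ pk_ne) (un_up h).ne, Lk_zpow, zero_add, Lk]

theorem Lk_four (h : t ≠ 0) : hn 1 * Lk t ∈ O := Lk_up h ▸ Lg_four (un_up h)

/-- comparison with the logarithm of block SB -/
theorem am_Lk_sb (h : t ≠ 0) : Sb.Gd (am t) ∧ am (Lk t) = Sb.Lg (am t) :=
  Sb.Lg_map two_K am nrm_am (Sb.gd_padic h)

variable {ι : Qb →+* ℂ_[pp]} {P : Ideal (𝓞 Qb)}

theorem iv_two (o : Ov pp P) (ht : (pp : K) ^ n * (pp * s) ∈ O) {k : ℕ} {β : Qb}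
    (hβ : β ^ pp ^ n = (pp : Qb) ^ k) : iv P (cp n (fun g => s * lam g) β) = 0 := by
  have e : β ^ pp ^ n = ((pp ^ k : ℕ) : ℤ) := by rw [hβ]; simp
  have z : ((pp ^ k : ℕ) : ℤ) ≠ 0 := Nat.cast_ne_zero.2 (pow_ne_zero _ pp_ne)
  have u := u2_lam ht
  simpa using Iv.rec0 (cp_z2 (rt_int e z) u.ad u.lv) {pp} (fun _ => P)
    (by simpa using o) (fun p hp m => (GW.Pl.ex_ov hp).imp fun Q q => ⟨q, cp_unr q
      (by simpa using m) e (fun d => m (Finset.mem_singleton.2 ((Nat.prime_dvd_prime_iff_eq hp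
        pp_prime).1 (hp.dvd_of_dvd_pow (Int.natCast_dvd_natCast.1 d)))))
      (u.loc q (by simpa using m))⟩)

theorem iv_rat (o : Ov pp P) (ht : (pp : K) ^ n * (pp * s) ∈ O) {v a : ℤ} (ha : ¬ (pp : ℤ) ∣ a)
    {β : Qb} (hβ : β ^ pp ^ n = (pp : Qb) ^ v * a) :
    iv P (cp n (fun g => s * lam g) β) = -mq (s * Lg a) := by
  have a0 : a ≠ 0 := fun e => by simp [e] at ha
  have p0 : (pp : Qb) ≠ 0 := Sb.c_ne
  obtain ⟨b, hb⟩ := ex_rt n ((pp : Qb) ^ v.toNat)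
  obtain ⟨c, hc⟩ := ex_rt n ((pp : Qb) ^ (-v).toNat)
  obtain ⟨d, hd⟩ := ex_rt n a
  have r : ∀ {b : Qb} {k : ℕ}, b ^ pp ^ n = (pp : Qb) ^ k → Rt (dec P) n b := fun e =>
    rt_of e (pow_ne_zero _ p0) fun g _ => by rw [map_pow, map_natCast]
  have e1 := iv_mul o (r hb) (rt_int hd a0) (lam_ad _ s) (lam_lv _ ht) (mul_pow _ _ _)
  rw [iv_mul o (rt_of hβ (mul_ne_zero (zpow_ne_zero _ p0) (Int.cast_ne_zero.2 a0))
    fun g _ => by rw [map_mul, map_zpow₀, map_natCast, map_intCast]) (r hc) (lam_ad _ s)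
    (lam_lv _ ht) (by
      rw [mul_pow, hb, hd, hβ, hc, mul_right_comm, ← zpow_natCast, ← zpow_natCast, ← zpow_add₀ p0]
      congr 2
      omega), iv_two o ht hb, iv_two o ht hc, iv_lam o ht ha hd, add_zero, zero_add] at e1
  exact e1

theorem ex_apx (n : ℕ) (h : Un x) : ∃ (a : ℤ) (w : K), ¬ (pp : ℤ) ∣ a ∧ w ≠ 0 ∧
    x = a * w ^ pp ^ n ∧ hn (n + 2) * (Lg x - Lg a) ∈ O := by
  obtain ⟨m, hm⟩ := apx (n + 2) h.mem
  have nd : ¬ (pp : ℤ) ∣ m := fun d => (lt_iff.2 (O_of (add_mem (hn_dn hm) ((int_iff 1 m).2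
    (by simpa using d))) (by push_cast; ring))).ne h
  have u : Un m := by simpa using un_int nd
  obtain ⟨y, y1, e⟩ := u.inv
  have z : hn (n + 2) * (x * y - 1) ∈ O := O_of (O_mul hm y1) (by
    linear_combination hn (n + 2) * e)
  have l := lt_iff.2 (hn_dn z)
  have uz : Un (x * y) := nrm_one l
  obtain ⟨w, hw, -⟩ := pw_root n (z := x * y) (by
    have := mem_O.1 z
    rw [norm_mul, hn, norm_inv, norm_pow, two_K, one_div, inv_pow, inv_inv, pow_add,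
      mul_right_comm] at this
    rw [one_div, inv_pow, ← one_div, le_div_iff₀ (pow_pos Sb.r_pos _)]
    exact this)
  have ex : x = m * (x * y) := by linear_combination (-x) * e
  refine ⟨m, w, nd, fun c => uz.ne ?_, by rw [hw, Int.cast_natCast, ← ex], ?_⟩
  · rw [← hw, c, zero_pow (pw_pos n).ne']
  · obtain ⟨r, r1, r2⟩ := Lg_un1 l
    rw [Int.cast_natCast, ex, Lg_mul u uz, add_sub_cancel_left, r2]
    exact O_of (O_mul z r1.mem) (by ring)

/-- **the value of the invariant** -/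
theorem Ind.val (h : Ind ι P) (hs : (pp : K) ^ n * (pp * s) ∈ O) (t0 : t ≠ 0) {β : ℂ_[pp]}
    (hβ : β ^ pp ^ n = am t) {κ : GQ → K} (hκ : ∀ g ∈ dec P, h.ro g β = ι (ex (κ g)) * β) :
    iv P (fun g j => s * lam g * (cy g * ((pp : K) ^ n * κ j))) = -mq (s * Lk t) := by
  obtain ⟨a, w, ha, w0, e, k⟩ := ex_apx n (un_up t0)
  have w1 : am w ≠ 0 := (map_ne_zero am).2 w0
  obtain ⟨γ, g1, g2⟩ := ex_root ι (x := β / am w) (a := (pp : Qb) ^ t.valuation * a) (pw_pos n) (by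
    rw [div_pow, hβ, div_eq_iff (pow_ne_zero _ w1)]
    conv_lhs => rw [eq_up t, e]
    simp only [map_mul, map_zpow₀, map_natCast, map_intCast, map_pow, mul_assoc])
  have r : Rt (dec P) n γ := rt_of g2 (mul_ne_zero (zpow_ne_zero _ Sb.c_ne)
    (Int.cast_ne_zero.2 fun e => by simp [e] at ha))
    fun g _ => by rw [map_mul, map_zpow₀, map_natCast, map_intCast]
  rw [← iv_congr h.ov (z := cp n (fun g => s * lam g) γ) fun g hg j hj => O_of
    (O_cp (lam_lv _ hs g hg) g (r.eq hj (x := κ j) (ι.injective (by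
      rw [← h.ro_emb hj, map_mul, g1, map_div₀, hκ j hj, h.ro_am, mul_div_assoc]))))
      (by simp only [cp]; ring), iv_rat h.ov hs ha g2, neg_inj, mq_eq]
  refine O_of (neg_mem (O_mul hs (O_mul O_pp k))) ?_
  rw [Lk_up t0]
  linear_combination (s * (Lg (up t) - Lg a)) * hn_mul (n + 2)

/-- the same for algebraic numbers -/
theorem Ind.val' (h : Ind ι P) (hs : (pp : K) ^ n * (pp * s) ∈ O) {a β : Qb} (k : Fx P a)
    (a0 : a ≠ 0) (hβ : β ^ pp ^ n = a) :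
    iv P (cp n (fun g => s * lam g) β) = -mq (s * Lk (Ah.vl ι a)) :=
  h.val hs (h.vl_ne k a0) (β := ι β) (by rw [← map_pow, hβ, h.vl k]) fun g hg => by
    rw [h.ro_emb hg, ← map_mul, ← (rt_of hβ a0 k).act hg]

variable {X : Type} {α : GQ → X → X} {S : Finset X} {τ ε : X → K} {u : X → ℂ_[pp]}

theorem Ind.ex_prod (h : Ind ι P) (d : Ds (dec P) α S) (hu : u ∈ h.fd.G α S) :
    ∃ t, t ≠ 0 ∧ ∏ x ∈ S, u x = am t := by
  obtain ⟨t, e⟩ := h.ro_fx (x := ∏ x ∈ S, u x) (prod_mem fun x hx => (hu x hx).2.1) fun g hg => by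
    rw [map_prod, ← d.prod hg u]
    exact Finset.prod_congr rfl fun x hx => (hu x hx).2.2 g hg
  exact ⟨t, fun c => Finset.prod_ne_zero_iff.2 (fun x hx => (hu x hx).1) (by
    rw [← e, c, map_zero]), e.symm⟩

/-- **row S3** -/
theorem Ind.s3 (h : Ind ι P) (d : Ds (dec P) α S) (w : Tw (dec P) α S n τ) (hu : u ∈ h.fd.G α S)
    (m : ∀ x ∈ S, ‖ε x‖ = 1) (e : ∀ x ∈ S, hn n * (ε x * τ x - 1) ∈ O)
    (ht : ∏ x ∈ S, u x = am t) :
    h.fd.sym α S n τ (h.fd.ze n ε) u = -mq (hn (n + n) * Lk t) := by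
  obtain ⟨t', t0, e'⟩ := h.ex_prod d hu
  obtain rfl : t = t' := am.injective (ht.symm.trans e')
  obtain ⟨κ, β, b1, b2, b3⟩ := Fd.ex_ku (F := h.fd) (ds_pt _) (a := fun _ => am t) (fun _ _ =>
    ⟨(map_ne_zero am).2 t0, am_AA t, fun g _ => h.ro_am g t⟩) (n + n)
  have p := Finset.mem_singleton_self ()
  rw [Fd.zeta1 (F := h.fd) lo_Lg d w hu m e ((b1 () p).trans ht.symm) (b2 () p)
    fun g hg => b3 g hg () p]
  exact h.val (O_of O_pp (by linear_combination pp * hn_mul (n + n))) t0 (b1 () p)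
    fun g hg => b3 g hg () p

/-- row S3 with the root of unity on the right -/
theorem Ind.s3' (h : Ind ι P) (d : Ds (dec P) α S) (w : Tw (dec P) α S n τ) (hu : u ∈ h.fd.G α S)
    (m : ∀ x ∈ S, ‖ε x‖ = 1) (e : ∀ x ∈ S, hn n * (ε x * τ x - 1) ∈ O)
    (ht : ∏ x ∈ S, u x = am t) :
    h.fd.sym α S n τ u (h.fd.ze n ε) = mq (hn (n + n) * Lk t) := by
  rw [Fd.anti (F := h.fd) d w hu (Fd.ze_mem (Fd.tw_eps (F := h.fd) d w (fun x hx =>
    Un.mem (m x hx)) e)), h.s3 d w hu m e ht, neg_neg]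

/-- row S3 in the words of block SB -/
theorem Ind.s3_sb (h : Ind ι P) (d : Ds (dec P) α S) (w : Tw (dec P) α S n τ)
    (hu : u ∈ h.fd.G α S) (m : ∀ x ∈ S, ‖ε x‖ = 1)
    (e : ∀ x ∈ S, hn n * (ε x * τ x - 1) ∈ O) : Sb.Gd (∏ x ∈ S, u x) ∧ ∃ θ : K,
      am θ = Sb.Lg (∏ x ∈ S, u x) ∧
        h.fd.sym α S n τ u (h.fd.ze n ε) = mq (hn (n + n) * θ) := by
  obtain ⟨t, t0, ht⟩ := h.ex_prod d hu
  rw [ht]
  exact ⟨(am_Lk_sb t0).1, _, (am_Lk_sb t0).2, h.s3' d w hu m e ht⟩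

end Vale.Agent.P014U.Ah
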