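import Vale.Agent.P014U.Ah.Log
import Vale.Agent.P014U.Sy.Ex
import Vale.Agent.P014T.Ah.Vl
import Vale.Agent.P022D.Loc2.Dec
import Vale.Agent.P022E.GW.TauG

/-!
# P014U, block AH: the decomposition field inside the adic numbers (helper37)
-/

set_option linter.all false

noncomputable section

namespace Vale.Agent.P014U.Ah

open NumberField Polynomial
open Vale.Agent.P022 (Qb GQ)
open Vale.Agent.P022D.W (dec)
open Vale.Agent.P022D.Loc2
open Vale.Agent.P022E.GW (Ov)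
open Vale.Agent.P014U.X4S.Ga (K O mem_O)
open scoped Pointwise

export Vale.Agent.P014T.Ah (Fx fx_rat fx_int fx_nat)

variable [Pp]

/-- the embedding induces the prime -/
def Ind (ι : Qb →+* ℂ_[pp]) (P : Ideal (𝓞 Qb)) : Prop := ∀ x : 𝓞 Qb, x ∈ P ↔ ‖ι x‖ < 1

/-- the inclusion of the adic numbers -/
abbrev am : K →+* ℂ_[pp] := algebraMap K ℂ_[pp]

/-- the basic embedding -/
def i0 : Qb →+* ℂ_[pp] := (algebraMap (PadicAlgCl pp) ℂ_[pp]).comp (io pp).toRingHom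

theorem i0_nrm (x : Qb) : ‖i0 x‖ = ‖io pp x‖ := PadicComplex.norm_extends pp _

theorem ex_s (ι : Qb →+* ℂ_[pp]) : ∃ s : GQ, ∀ x, i0 (s x) = ι x := by
  have := galQ
  let _ : Algebra Qb ℂ_[pp] := i0.toAlgebra
  have := IsScalarTower.of_algebraMap_eq (R := ℚ) (S := Qb) (A := ℂ_[pp])
    fun x => (i0.toRatAlgHom.commutes x).symm
  exact ⟨ι.toRatAlgHom.restrictNormal' Qb, fun x => ι.toRatAlgHom.restrictNormal_commutes Qb x⟩

variable {ι : Qb →+* ℂ_[pp]} {P : Ideal (𝓞 Qb)} {a b : Qb} {g : GQ}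

theorem nrm_int (ι : Qb →+* ℂ_[pp]) (x : 𝓞 Qb) : ‖ι x‖ ≤ 1 := by
  obtain ⟨s, hs⟩ := ex_s ι
  rw [← hs, i0_nrm]
  exact norm_int pp (s • x)

theorem ex_ind (o : Ov pp P) : ∃ ι, Ind ι P := by
  obtain ⟨t, rfl⟩ := P022E.GW.Tg.trans (⟨pp_prime, PP_prime pp, p_mem_PP pp⟩ : Ov pp (PP pp)) o
  refine ⟨i0.comp (t⁻¹ : GQ).toRingEquiv.toRingHom, fun x => ?_⟩
  rw [Ideal.mem_pointwise_smul_iff_inv_smul_mem, mem_PP, ← i0_nrm]
  rfl

theorem Ind.pq (h : Ind ι P) {s : GQ} (hs : ∀ x, i0 (s x) = ι x) (x : 𝓞 Qb) :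
    x ∈ P ↔ s • x ∈ PP pp := by
  rw [h, mem_PP, ← i0_nrm, ← hs]
  rfl

theorem Ind.ov (h : Ind ι P) : Ov pp P := by
  obtain ⟨s, hs⟩ := ex_s ι
  refine ⟨pp_prime, ⟨fun e => ?_, fun {x y} e => ?_⟩, ?_⟩
  · have := (h 1).1 (e ▸ Submodule.mem_top)
    simp at this
  · rw [h.pq hs, smul_mul'] at e
    rw [h.pq hs, h.pq hs]
    exact (PP_prime pp).mem_or_mem e
  · rw [h, show ((pp : 𝓞 Qb) : Qb) = pp by simp, map_natCast]
    exact two_lt

theorem Ind.dec_jj (h : Ind ι P) {s : GQ} (hs : ∀ x, i0 (s x) = ι x) :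
    g ∈ dec P ↔ ∃ σ, jj pp σ = s * g * s⁻¹ := by
  rw [← range_jj]
  refine ⟨fun k x => ?_, fun k x => ?_⟩
  · rw [mul_smul, mul_smul, ← h.pq hs, k, h.pq hs, smul_inv_smul]
  · rw [h.pq hs, h.pq hs, ← k (s • x), mul_smul, mul_smul, inv_smul_smul]

/-- **the decomposition field** -/
theorem Ind.fx (h : Ind ι P) : Fx P a ↔ ∃ x, am x = ι a := by
  obtain ⟨s, hs⟩ := ex_s ι
  refine ⟨fun k => ?_, fun ⟨x, e⟩ g hg => ?_⟩
  · obtain ⟨x, e⟩ := (InfiniteGalois.mem_range_algebraMap_iff_fixed (k := ℚ_[pp])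
      (io pp (s a))).2 fun σ => by
        have := k (s⁻¹ * jj pp σ * s) ((h.dec_jj hs).2 ⟨σ, by group⟩)
        rw [AlgEquiv.mul_apply, AlgEquiv.mul_apply] at this
        rw [← io_jj]
        conv_rhs => rw [← this, ← AlgEquiv.mul_apply, mul_inv_cancel, AlgEquiv.one_apply]
    exact ⟨x, by rw [← hs]; exact congrArg (algebraMap (PadicAlgCl pp) ℂ_[pp]) e⟩
  · have := fix pp _ ((range_jj pp _).2 ((h.dec_jj hs).1 hg)) (s a) x
      ((algebraMap (PadicAlgCl pp) ℂ_[pp]).injective (e.trans (hs a).symm))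
    rw [AlgEquiv.mul_apply, AlgEquiv.mul_apply, ← AlgEquiv.mul_apply s⁻¹, inv_mul_cancel,
      AlgEquiv.one_apply] at this
    exact s.injective this

/-- elements of the decomposition group extend to isometries -/
theorem Ind.ext (h : Ind ι P) (hg : g ∈ dec P) : ∃ σ : ℂ_[pp] →+* ℂ_[pp], Isometry σ ∧
    (∀ x, σ (ι x) = ι (g x)) ∧ ∀ x, σ (am x) = am x := by
  obtain ⟨s, hs⟩ := ex_s ι
  obtain ⟨σ, e⟩ := (h.dec_jj hs).1 hg
  have i : Isometry σ.toRingEquiv.toRingHom := AddMonoidHomClass.isometry_of_norm _ fun x =>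
    (spectralNorm_eq_of_equiv σ x).symm
  have c : ∀ x : PadicAlgCl pp, UniformSpace.Completion.mapRingHom _ i.continuous (x : ℂ_[pp]) =
      (σ x : PadicAlgCl pp) := fun x => UniformSpace.Completion.map_coe i.uniformContinuous x
  refine ⟨UniformSpace.Completion.mapRingHom _ i.continuous, i.completion_map, fun x => ?_,
    fun x => ?_⟩
  · rw [← hs, ← hs]
    refine (c _).trans (congrArg _ ?_)
    refine (io_jj pp σ _).symm.trans (congrArg _ ?_)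
    rw [e, AlgEquiv.mul_apply, AlgEquiv.mul_apply, ← AlgEquiv.mul_apply s⁻¹, inv_mul_cancel,
      AlgEquiv.one_apply]
  · exact (c _).trans (congrArg _ (σ.commutes x))

theorem Ind.nrm (h : Ind ι P) (hg : g ∈ dec P) (x : Qb) : ‖ι (g x)‖ = ‖ι x‖ := by
  obtain ⟨σ, i, e, -⟩ := h.ext hg
  rw [← e, i.norm_map_of_map_zero (map_zero σ)]

theorem Ind.dec_iff (h : Ind ι P) : g ∈ dec P ↔ ∀ x, ‖ι (g x)‖ = ‖ι x‖ :=
  ⟨h.nrm, fun k x => by rw [h, h, ← k x]; rfl⟩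

open Classical in
/-- the adic value -/
def vl (ι : Qb →+* ℂ_[pp]) (a : Qb) : K := if h : ∃ x, am x = ι a then h.choose else 0

theorem vl_eq {x : K} (e : am x = ι a) : vl ι a = x := by
  have : ∃ x, am x = ι a := ⟨x, e⟩
  rw [vl, dif_pos this]
  exact am.injective (this.choose_spec.trans e.symm)

theorem Ind.vl (h : Ind ι P) (k : Fx P a) : am (vl ι a) = ι a :=
  let ⟨_, e⟩ := h.fx.1 k
  by rw [vl_eq e, e]

theorem Ind.vl_nrm (h : Ind ι P) (k : Fx P a) : ‖Ah.vl ι a‖ = ‖ι a‖ := by rw [← h.vl k, nrm_am]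

theorem Ind.vl_mul (h : Ind ι P) (k : Fx P a) (k' : Fx P b) :
    Ah.vl ι (a * b) = Ah.vl ι a * Ah.vl ι b := vl_eq (by rw [map_mul, map_mul, h.vl k, h.vl k'])

theorem Ind.vl_add (h : Ind ι P) (k : Fx P a) (k' : Fx P b) :
    Ah.vl ι (a + b) = Ah.vl ι a + Ah.vl ι b := vl_eq (by rw [map_add, map_add, h.vl k, h.vl k'])

theorem Ind.vl_ne (h : Ind ι P) (k : Fx P a) (h0 : a ≠ 0) : Ah.vl ι a ≠ 0 := fun e =>
  (map_ne_zero ι).2 h0 (by rw [← h.vl k, e, map_zero])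

theorem vl_rat (q : ℚ) : vl ι q = q := vl_eq (by rw [map_ratCast, map_ratCast])

theorem vl_int (q : ℤ) : vl ι q = q := vl_eq (by rw [map_intCast, map_intCast])

theorem vl_nat (q : ℕ) : vl ι q = q := vl_eq (by rw [map_natCast, map_natCast])

/-- roots of algebraic numbers are algebraic -/
theorem ex_root (ι : Qb →+* ℂ_[pp]) {x : ℂ_[pp]} {m : ℕ} (hm : 0 < m) (e : x ^ m = ι a) :
    ∃ y, ι y = x ∧ y ^ m = a := by
  obtain ⟨y, hy⟩ := (IsAlgClosed.splits (X ^ m - C a : Qb[X])).mem_range_of_isRoot (i := ι)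
    (X_pow_sub_C_ne_zero hm a) (x := x) (by simp [e])
  exact ⟨y, hy, ι.injective (by rw [map_pow, hy, e])⟩

/-- roots close to one -/
theorem p_root {z : K} (h : ‖z - 1‖ < (1 / pp) ^ 2) :
    ∃ w : K, w ^ pp = z ∧ ‖w - 1‖ = pp * ‖z - 1‖ := by
  have h2 : ‖(pp : ℤ_[pp])‖ = 1 / pp := by rw [PadicInt.norm_p, one_div]
  have a1 := Sb.r_inv
  have a0 := Sb.r_inv0
  let u : ℤ_[pp] := ⟨z, (nrm_one (h.trans (by nlinarith))).le⟩
  have h1 : (X ^ pp - C u : ℤ_[pp][X]).aeval (1 : ℤ_[pp]) = 1 - u := by simp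
  have h3 : (X ^ pp - C u : ℤ_[pp][X]).derivative.aeval (1 : ℤ_[pp]) = pp := by
    simp [derivative_X_pow]
  obtain ⟨w, hw, lt, -⟩ := hensels_lemma (F := (X ^ pp - C u : ℤ_[pp][X])) (a := (1 : ℤ_[pp])) (by
    rw [h1, h3, h2, norm_sub_rev]
    exact h)
  have e : w ^ pp = u := sub_eq_zero.1 (by simpa using hw)
  rw [h3, h2] at lt
  obtain ⟨y, hy⟩ := pw_one (lt.trans a1) 1
  rw [add_sub_cancel, pow_one, pow_one, e] at hy
  have n : ‖1 + (w - 1) * y‖ = 1 := by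
    refine nrm_one (x := ((1 + (w - 1) * y : ℤ_[pp]) : K)) ?_
    rw [← PadicInt.coe_one, ← PadicInt.coe_sub, add_sub_cancel_left, PadicInt.padic_norm_e_of_padicInt,
      norm_mul]
    exact (mul_le_of_le_one_right (norm_nonneg _) y.2).trans_lt (lt.trans a1)
  refine ⟨w, by rw [← PadicInt.coe_pow, e], ?_⟩
  change ‖w - 1‖ = pp * ‖u - 1‖
  rw [hy, add_sub_cancel_left, norm_mul, norm_mul, n, h2, mul_one, ← mul_assoc,
    mul_one_div_cancel Sb.r_pos.ne', one_mul]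

theorem pw_root (n : ℕ) {z : K} (h : pp ^ n * ‖z - 1‖ ≤ (1 / pp) ^ 2) :
    ∃ w : K, w ^ pp ^ n = z ∧ ‖w - 1‖ = pp ^ n * ‖z - 1‖ := by
  induction n generalizing z with
  | zero => exact ⟨z, by simp, by simp⟩
  | succ n ih =>
    have p : (1 : ℝ) < pp ^ (n + 1) := one_lt_pow₀ Sb.r_one n.succ_ne_zero
    have a0 := pow_pos Sb.r_inv0 2
    obtain ⟨w, e, k⟩ := p_root (z := z) (by
      by_contra! c
      nlinarith)
    obtain ⟨v, e', k'⟩ := ih (z := w) (by rw [k, ← mul_assoc, ← pow_succ]; exact h)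
    exact ⟨v, by rw [pow_succ, pow_mul, e', e], by rw [k', k, ← mul_assoc, ← pow_succ]⟩

end Vale.Agent.P014U.Ah
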